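import Mathlib

namespace Vale.Agent.Lib.P229

open scoped ContDiff

/-- The Riemannian metric `g = E dx² + 2 F dx dy + G dy²` with coefficient functions
`E F G : ℝ × ℝ → ℝ` is *locally `C^∞`-realizable at `p`* if some open neighbourhood `U` of `p`
admits a `C^∞` map `Φ : U → ℝ³` (Euclidean three-space) which is isometric, i.e.
`⟨∂₁Φ, ∂₁Φ⟩ = E`, `⟨∂₁Φ, ∂₂Φ⟩ = F` and `⟨∂₂Φ, ∂₂Φ⟩ = G` on `U`, where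
`∂₁Φ = dΦ(1,0)` and `∂₂Φ = dΦ(0,1)`. -/
def LocallySmoothlyRealizable (E F G : ℝ × ℝ → ℝ) (p : ℝ × ℝ) : Prop :=
  ∃ U : Set (ℝ × ℝ), IsOpen U ∧ p ∈ U ∧
    ∃ Φ : ℝ × ℝ → EuclideanSpace ℝ (Fin 3), ContDiffOn ℝ ∞ Φ U ∧
      ∀ q ∈ U,
        inner ℝ (fderiv ℝ Φ q (1, 0)) (fderiv ℝ Φ q (1, 0)) = E q ∧
        inner ℝ (fderiv ℝ Φ q (1, 0)) (fderiv ℝ Φ q (0, 1)) = F q ∧
        inner ℝ (fderiv ℝ Φ q (0, 1)) (fderiv ℝ Φ q (0, 1)) = G q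

end Vale.Agent.Lib.P229
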