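import Vale.Agent.Lib.P229.Defs

namespace Vale.Agent.Lib.P229

open scoped ContDiff
open Set

/-- The primitive of a smooth function on an open interval is smooth, with the expected
derivative. -/
theorem primitive_smooth {k : ℝ → ℝ} {α β x₀ : ℝ} (hx₀ : x₀ ∈ Ioo α β)
    (hk : ContDiffOn ℝ ∞ k (Ioo α β)) :
    ContDiffOn ℝ ∞ (fun x => ∫ t in x₀..x, k t) (Ioo α β) ∧
      ∀ x ∈ Ioo α β, HasDerivAt (fun x => ∫ t in x₀..x, k t) (k x) x := by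
  have hderiv : ∀ x ∈ Ioo α β, HasDerivAt (fun x => ∫ t in x₀..x, k t) (k x) x := by
    intro x hx
    have hsub : uIcc x₀ x ⊆ Ioo α β := by
      intro t ht
      rcases mem_uIcc.1 ht with h | h
      · exact ⟨lt_of_lt_of_le hx₀.1 h.1, lt_of_le_of_lt h.2 hx.2⟩
      · exact ⟨lt_of_lt_of_le hx.1 h.1, lt_of_le_of_lt h.2 hx₀.2⟩
    have hint : IntervalIntegrable k MeasureTheory.volume x₀ x :=
      (hk.continuousOn.mono hsub).intervalIntegrable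
    exact intervalIntegral.integral_hasDerivAt_right hint
      (hk.continuousOn.stronglyMeasurableAtFilter isOpen_Ioo x hx)
      (hk.continuousOn.continuousAt (isOpen_Ioo.mem_nhds hx))
  refine ⟨?_, hderiv⟩
  rw [contDiffOn_infty_iff_deriv_of_isOpen isOpen_Ioo]
  exact ⟨fun x hx => (hderiv x hx).differentiableAt.differentiableWithinAt,
    hk.congr fun x hx => (hderiv x hx).deriv⟩

/-- The generalized helicoid `(x, y) ↦ (a(x) cos(c y + θ(x)), a(x) sin(c y + θ(x)), b(x))`. -/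
noncomputable def helicoid (a θ b : ℝ → ℝ) (c : ℝ) : ℝ × ℝ → EuclideanSpace ℝ (Fin 3) :=
  fun q => !₂[a q.1 * Real.cos (c * q.2 + θ q.1), a q.1 * Real.sin (c * q.2 + θ q.1), b q.1]

theorem fderiv_apply_coord (Φ : ℝ × ℝ → EuclideanSpace ℝ (Fin 3)) (q : ℝ × ℝ)
    (h : DifferentiableAt ℝ Φ q) (i : Fin 3) (v : ℝ × ℝ) :
    (fderiv ℝ Φ q v) i = fderiv ℝ (fun q => Φ q i) q v := by
  have := ((PiLp.proj (𝕜 := ℝ) 2 (fun _ : Fin 3 => ℝ) i).hasFDerivAt.comp q h.hasFDerivAt).fderiv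
  have h2 : (fun q => Φ q i) = (PiLp.proj (𝕜 := ℝ) 2 (fun _ : Fin 3 => ℝ) i) ∘ Φ := rfl
  rw [h2, this]
  rfl

theorem inner_eq_three (x y : EuclideanSpace ℝ (Fin 3)) :
    inner ℝ x y = x 0 * y 0 + x 1 * y 1 + x 2 * y 2 := by
  simp [PiLp.inner_apply, Fin.sum_univ_three]
  ring

theorem helicoid_contDiffOn {J : Set ℝ} (a θ b : ℝ → ℝ) (c : ℝ)
    (ha : ContDiffOn ℝ ∞ a J) (hθ : ContDiffOn ℝ ∞ θ J) (hb : ContDiffOn ℝ ∞ b J) :
    ContDiffOn ℝ ∞ (helicoid a θ b c) (J ×ˢ (univ : Set ℝ)) := by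
  have hmaps : MapsTo (fun q : ℝ × ℝ => q.1) (J ×ˢ (univ : Set ℝ)) J := fun q hq => hq.1
  have hfst : ContDiffOn ℝ ∞ (fun q : ℝ × ℝ => q.1) (J ×ˢ (univ : Set ℝ)) := contDiff_fst.contDiffOn
  have hsnd : ContDiffOn ℝ ∞ (fun q : ℝ × ℝ => q.2) (J ×ˢ (univ : Set ℝ)) := contDiff_snd.contDiffOn
  have hA : ContDiffOn ℝ ∞ (fun q : ℝ × ℝ => a q.1) (J ×ˢ (univ : Set ℝ)) := ha.comp hfst hmaps
  have hT : ContDiffOn ℝ ∞ (fun q : ℝ × ℝ => θ q.1) (J ×ˢ (univ : Set ℝ)) := hθ.comp hfst hmaps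
  have hB : ContDiffOn ℝ ∞ (fun q : ℝ × ℝ => b q.1) (J ×ˢ (univ : Set ℝ)) := hb.comp hfst hmaps
  have hψ : ContDiffOn ℝ ∞ (fun q : ℝ × ℝ => c * q.2 + θ q.1) (J ×ˢ (univ : Set ℝ)) :=
    (contDiffOn_const.mul hsnd).add hT
  have h1 : ContDiffOn ℝ ∞ (fun q : ℝ × ℝ => a q.1 * Real.cos (c * q.2 + θ q.1))
      (J ×ˢ (univ : Set ℝ)) := hA.mul (Real.contDiff_cos.comp_contDiffOn hψ)
  have h2 : ContDiffOn ℝ ∞ (fun q : ℝ × ℝ => a q.1 * Real.sin (c * q.2 + θ q.1))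
      (J ×ˢ (univ : Set ℝ)) := hA.mul (Real.contDiff_sin.comp_contDiffOn hψ)
  rw [contDiffOn_euclidean]
  intro i
  fin_cases i
  · exact h1
  · exact h2
  · exact hB

theorem helicoid_isometric {J : Set ℝ} (hJ : IsOpen J) (a θ b a' θ' b' : ℝ → ℝ) (c : ℝ)
    (ha : ContDiffOn ℝ ∞ a J) (hθ : ContDiffOn ℝ ∞ θ J) (hb : ContDiffOn ℝ ∞ b J)
    (ha' : ∀ x ∈ J, HasDerivAt a (a' x) x) (hθ' : ∀ x ∈ J, HasDerivAt θ (θ' x) x)
    (hb' : ∀ x ∈ J, HasDerivAt b (b' x) x) (q : ℝ × ℝ) (hq : q.1 ∈ J) :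
    inner ℝ (fderiv ℝ (helicoid a θ b c) q (1, 0)) (fderiv ℝ (helicoid a θ b c) q (1, 0))
        = a' q.1 ^ 2 + a q.1 ^ 2 * θ' q.1 ^ 2 + b' q.1 ^ 2 ∧
    inner ℝ (fderiv ℝ (helicoid a θ b c) q (1, 0)) (fderiv ℝ (helicoid a θ b c) q (0, 1))
        = a q.1 ^ 2 * c * θ' q.1 ∧
    inner ℝ (fderiv ℝ (helicoid a θ b c) q (0, 1)) (fderiv ℝ (helicoid a θ b c) q (0, 1))
        = a q.1 ^ 2 * c ^ 2 := by
  have hU : IsOpen (J ×ˢ (univ : Set ℝ)) := hJ.prod isOpen_univ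
  have hqU : q ∈ J ×ˢ (univ : Set ℝ) := ⟨hq, mem_univ _⟩
  have hdiff : DifferentiableAt ℝ (helicoid a θ b c) q :=
    ((helicoid_contDiffOn a θ b c ha hθ hb).contDiffAt (hU.mem_nhds hqU)).differentiableAt
      (by simp)
  have hfst : HasFDerivAt (fun q : ℝ × ℝ => q.1) (ContinuousLinearMap.fst ℝ ℝ ℝ) q :=
    hasFDerivAt_fst
  have hsnd : HasFDerivAt (fun q : ℝ × ℝ => q.2) (ContinuousLinearMap.snd ℝ ℝ ℝ) q :=
    hasFDerivAt_snd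
  have hA : HasFDerivAt (fun q : ℝ × ℝ => a q.1) (a' q.1 • ContinuousLinearMap.fst ℝ ℝ ℝ) q :=
    (ha' q.1 hq).comp_hasFDerivAt q hfst
  have hT : HasFDerivAt (fun q : ℝ × ℝ => θ q.1) (θ' q.1 • ContinuousLinearMap.fst ℝ ℝ ℝ) q :=
    (hθ' q.1 hq).comp_hasFDerivAt q hfst
  have hB : HasFDerivAt (fun q : ℝ × ℝ => b q.1) (b' q.1 • ContinuousLinearMap.fst ℝ ℝ ℝ) q :=
    (hb' q.1 hq).comp_hasFDerivAt q hfst
  have hψ : HasFDerivAt (fun q : ℝ × ℝ => c * q.2 + θ q.1)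
      (c • ContinuousLinearMap.snd ℝ ℝ ℝ + θ' q.1 • ContinuousLinearMap.fst ℝ ℝ ℝ) q :=
    (hsnd.const_mul c).add hT
  have h1 : HasFDerivAt (fun q : ℝ × ℝ => a q.1 * Real.cos (c * q.2 + θ q.1))
      (a q.1 • (-Real.sin (c * q.2 + θ q.1) •
          (c • ContinuousLinearMap.snd ℝ ℝ ℝ + θ' q.1 • ContinuousLinearMap.fst ℝ ℝ ℝ)) +
        Real.cos (c * q.2 + θ q.1) • (a' q.1 • ContinuousLinearMap.fst ℝ ℝ ℝ)) q :=
    hA.mul hψ.cos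
  have h2 : HasFDerivAt (fun q : ℝ × ℝ => a q.1 * Real.sin (c * q.2 + θ q.1))
      (a q.1 • (Real.cos (c * q.2 + θ q.1) •
          (c • ContinuousLinearMap.snd ℝ ℝ ℝ + θ' q.1 • ContinuousLinearMap.fst ℝ ℝ ℝ)) +
        Real.sin (c * q.2 + θ q.1) • (a' q.1 • ContinuousLinearMap.fst ℝ ℝ ℝ)) q :=
    hA.mul hψ.sin
  have e1 : ∀ v : ℝ × ℝ, (fderiv ℝ (helicoid a θ b c) q v) 0
      = a q.1 * (-Real.sin (c * q.2 + θ q.1) * (c * v.2 + θ' q.1 * v.1))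
        + Real.cos (c * q.2 + θ q.1) * (a' q.1 * v.1) := by
    intro v
    rw [fderiv_apply_coord _ _ hdiff]
    have : (fun q : ℝ × ℝ => helicoid a θ b c q 0)
        = fun q : ℝ × ℝ => a q.1 * Real.cos (c * q.2 + θ q.1) := rfl
    rw [this, h1.fderiv]
    simp
    ring
  have e2 : ∀ v : ℝ × ℝ, (fderiv ℝ (helicoid a θ b c) q v) 1
      = a q.1 * (Real.cos (c * q.2 + θ q.1) * (c * v.2 + θ' q.1 * v.1))
        + Real.sin (c * q.2 + θ q.1) * (a' q.1 * v.1) := by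
    intro v
    rw [fderiv_apply_coord _ _ hdiff]
    have : (fun q : ℝ × ℝ => helicoid a θ b c q 1)
        = fun q : ℝ × ℝ => a q.1 * Real.sin (c * q.2 + θ q.1) := rfl
    rw [this, h2.fderiv]
    simp
    ring
  have e3 : ∀ v : ℝ × ℝ, (fderiv ℝ (helicoid a θ b c) q v) 2 = b' q.1 * v.1 := by
    intro v
    rw [fderiv_apply_coord _ _ hdiff]
    have : (fun q : ℝ × ℝ => helicoid a θ b c q 2) = fun q : ℝ × ℝ => b q.1 := rfl
    rw [this, hB.fderiv]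
    simp
  have hsc := Real.sin_sq_add_cos_sq (c * q.2 + θ q.1)
  refine ⟨?_, ?_, ?_⟩
  · rw [inner_eq_three, e1, e2, e3]
    simp only [mul_zero, mul_one]
    linear_combination (a q.1 ^ 2 * θ' q.1 ^ 2 + a' q.1 ^ 2) * hsc
  · rw [inner_eq_three, e1, e2, e3, e1, e2, e3]
    simp only [mul_zero, mul_one, zero_add, add_zero]
    linear_combination (a q.1 ^ 2 * c * θ' q.1) * hsc
  · rw [inner_eq_three, e1, e2, e3]
    simp only [mul_zero, mul_one, add_zero]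
    linear_combination (a q.1 ^ 2 * c ^ 2) * hsc

end Vale.Agent.Lib.P229
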