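import Vale.Agent.Lib.P229.Helicoid

namespace Vale.Agent.Lib.P229

open scoped ContDiff
open Set

/-- Metrics whose coefficients depend on `x` only are locally smoothly realizable
(as generalized helicoids). -/
theorem realizable_of_translation_invariant (I : Set ℝ) (hI : IsOpen I) (E F G : ℝ → ℝ)
    (hE : ContDiffOn ℝ ∞ E I) (hF : ContDiffOn ℝ ∞ F I) (hG : ContDiffOn ℝ ∞ G I)
    (hpos : ∀ x ∈ I, 0 < E x ∧ 0 < E x * G x - F x ^ 2) (p : ℝ × ℝ) (hp : p.1 ∈ I) :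
    LocallySmoothlyRealizable (fun q => E q.1) (fun q => F q.1) (fun q => G q.1) p := by
  obtain ⟨x₀, y₀⟩ := p
  simp only at hp
  -- positivity of G
  have hGpos : ∀ x ∈ I, 0 < G x := by
    intro x hx
    obtain ⟨h1, h2⟩ := hpos x hx
    have h3 : 0 < E x * G x := by nlinarith [sq_nonneg (F x)]
    exact (mul_pos_iff_of_pos_left h1).1 h3
  have hG' : ContDiffOn ℝ ∞ (deriv G) I := hG.deriv_of_isOpen hI (by simp)
  have hD : ContDiffOn ℝ ∞ (fun x => E x * G x - F x ^ 2) I := (hE.mul hG).sub (hF.pow 2)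
  -- the constant c
  obtain ⟨c, hc⟩ : ∃ c : ℝ, c = 1 + (deriv G x₀) ^ 2 / (4 * (E x₀ * G x₀ - F x₀ ^ 2)) := ⟨_, rfl⟩
  have hD0 : 0 < E x₀ * G x₀ - F x₀ ^ 2 := (hpos x₀ hp).2
  have ht : 0 ≤ (deriv G x₀) ^ 2 / (4 * (E x₀ * G x₀ - F x₀ ^ 2)) := by positivity
  have hc1 : 1 ≤ c := by rw [hc]; linarith
  have hc0 : 0 < c := by linarith
  have hcsq : (deriv G x₀) ^ 2 < 4 * (E x₀ * G x₀ - F x₀ ^ 2) * c ^ 2 := by
    have h1 : (deriv G x₀) ^ 2 = 4 * (E x₀ * G x₀ - F x₀ ^ 2) * (c - 1) := by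
      rw [hc]; field_simp; ring
    have h2 : c - 1 < c ^ 2 := by nlinarith
    rw [h1]
    exact mul_lt_mul_of_pos_left h2 (by linarith)
  -- the function h
  obtain ⟨h, hh⟩ : ∃ h : ℝ → ℝ, h = fun x =>
      (E x * G x - F x ^ 2) / G x - (deriv G x) ^ 2 / (4 * G x * c ^ 2) := ⟨_, rfl⟩
  have hhsmooth : ContDiffOn ℝ ∞ h I := by
    rw [hh]
    refine (hD.div hG fun x hx => (hGpos x hx).ne').sub ((hG'.pow 2).div ?_ ?_)
    · exact (contDiffOn_const.mul hG).mul contDiffOn_const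
    · intro x hx
      have := hGpos x hx
      positivity
  have hh0 : 0 < h x₀ := by
    have hg := hGpos x₀ hp
    rw [hh]
    have e : (E x₀ * G x₀ - F x₀ ^ 2) / G x₀ - (deriv G x₀) ^ 2 / (4 * G x₀ * c ^ 2)
        = (4 * (E x₀ * G x₀ - F x₀ ^ 2) * c ^ 2 - (deriv G x₀) ^ 2) / (4 * G x₀ * c ^ 2) := by
      field_simp
    simp only
    rw [e]
    apply div_pos (by linarith) (by positivity)
  -- an interval on which h > 0
  have hWopen : IsOpen (I ∩ h ⁻¹' Ioi 0) :=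
    hhsmooth.continuousOn.isOpen_inter_preimage hI isOpen_Ioi
  obtain ⟨δ, hδ, hball⟩ := Metric.isOpen_iff.1 hWopen x₀ ⟨hp, hh0⟩
  rw [Real.ball_eq_Ioo] at hball
  have hJI : Ioo (x₀ - δ) (x₀ + δ) ⊆ I := fun x hx => (hball hx).1
  have hJh : ∀ x ∈ Ioo (x₀ - δ) (x₀ + δ), 0 < h x := fun x hx => (hball hx).2
  have hx₀J : x₀ ∈ Ioo (x₀ - δ) (x₀ + δ) := ⟨by linarith, by linarith⟩
  -- the three profile functions
  have hGJ : ContDiffOn ℝ ∞ G (Ioo (x₀ - δ) (x₀ + δ)) := hG.mono hJI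
  have haS : ContDiffOn ℝ ∞ (fun x => √(G x) / c) (Ioo (x₀ - δ) (x₀ + δ)) :=
    (hGJ.sqrt fun x hx => (hGpos x (hJI hx)).ne').div_const c
  have haD : ∀ x ∈ Ioo (x₀ - δ) (x₀ + δ),
      HasDerivAt (fun x => √(G x) / c) (deriv G x / (2 * √(G x)) / c) x := by
    intro x hx
    have hd : DifferentiableAt ℝ G x :=
      ((hG.contDiffAt (hI.mem_nhds (hJI hx))).differentiableAt (by simp))
    exact (hd.hasDerivAt.sqrt (hGpos x (hJI hx)).ne').div_const c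
  have hkθ : ContDiffOn ℝ ∞ (fun x => c * F x / G x) (Ioo (x₀ - δ) (x₀ + δ)) :=
    ((contDiffOn_const.mul (hF.mono hJI)).div hGJ fun x hx => (hGpos x (hJI hx)).ne')
  have hkb : ContDiffOn ℝ ∞ (fun x => √(h x)) (Ioo (x₀ - δ) (x₀ + δ)) :=
    (hhsmooth.mono hJI).sqrt fun x hx => (hJh x hx).ne'
  obtain ⟨hθS, hθD⟩ := primitive_smooth hx₀J hkθ
  obtain ⟨hbS, hbD⟩ := primitive_smooth hx₀J hkb
  refine ⟨Ioo (x₀ - δ) (x₀ + δ) ×ˢ (univ : Set ℝ), isOpen_Ioo.prod isOpen_univ,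
    ⟨hx₀J, mem_univ _⟩,
    helicoid (fun x => √(G x) / c) (fun x => ∫ t in x₀..x, c * F t / G t)
      (fun x => ∫ t in x₀..x, √(h t)) c,
    helicoid_contDiffOn _ _ _ c haS hθS hbS, ?_⟩
  rintro q ⟨hq, -⟩
  obtain ⟨e1, e2, e3⟩ := helicoid_isometric isOpen_Ioo _ _ _ _ _ _ c haS hθS hbS haD hθD hbD q hq
  have hg := hGpos q.1 (hJI hq)
  have hhq := hJh q.1 hq
  obtain ⟨s, hs⟩ : ∃ s : ℝ, s = √(G q.1) := ⟨_, rfl⟩
  have hs0 : 0 < s := by rw [hs]; exact Real.sqrt_pos.2 hg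
  have hs2 : G q.1 = s ^ 2 := by rw [hs, Real.sq_sqrt hg.le]
  have hb2 : √(h q.1) ^ 2 = h q.1 := Real.sq_sqrt hhq.le
  have hhq' : h q.1 = (E q.1 * G q.1 - F q.1 ^ 2) / G q.1
      - (deriv G q.1) ^ 2 / (4 * G q.1 * c ^ 2) := by rw [hh]
  refine ⟨?_, ?_, ?_⟩
  · rw [e1]
    simp only
    rw [hb2, hhq', ← hs, hs2]
    field_simp
    ring
  · rw [e2]
    simp only
    rw [← hs, hs2]
    field_simp
  · rw [e3]
    simp only
    rw [← hs]
    field_simp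
    rw [hs2]

end Vale.Agent.Lib.P229
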